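import Mathlib
import Vale.Agent.P142.Sharp.Final

/-!
An improved bound for the integral-means spectrum at exponent minus two, and the resulting range
of exponents in Brennan's integrability problem.
-/

namespace Vale.Agent.Results.P142.BrennanRange

open Complex Metric Set Filter Topology MeasureTheory
open scoped Real ENNReal

/-- The spectrum at minus two is at most `41/40`, with the integrability range it gives. -/
theorem result :
    (∀ f : ℂ → ℂ, DifferentiableOn ℂ f (ball 0 1) → InjOn f (ball 0 1) →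
      limsup (fun r : ℝ => ((Real.log ((2 * π)⁻¹ * ∫ θ in (-π)..π,
          ‖deriv f (circleMap 0 r θ)‖ ^ (-2 : ℝ)) / Real.log (1 / (1 - r)) : ℝ) : EReal))
        (𝓝[<] 1) ≤ ((41 / 40 : ℝ) : EReal) ∧
      (∃ C : ℝ, ∀ r : ℝ, 0 ≤ r → r < 1 →
        (2 * π)⁻¹ * ∫ θ in (-π)..π, ‖deriv f (circleMap 0 r θ)‖ ^ (-2 : ℝ) ≤
          C * (1 / (1 - r)) ^ (41 / 40 : ℝ)) ∧
      ∫⁻ z in ball (0 : ℂ) 1,
          ENNReal.ofReal (‖deriv f z‖ ^ (-2 : ℝ) * (1 - ‖z‖ ^ 2) ^ (1 / 40 : ℝ)) < ⊤ ∧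
      ∀ t : ℝ, -80 / 41 < t → t ≤ 0 →
        ∫⁻ z in ball (0 : ℂ) 1, ENNReal.ofReal (‖deriv f z‖ ^ t) < ⊤) ∧
    (∀ (W : Set ℂ) (φ : ℂ → ℂ), IsOpen W → DifferentiableOn ℂ φ W → BijOn φ W (ball 0 1) →
      ∀ s : ℝ, 2 ≤ s → s < 162 / 41 →
        ∫⁻ w in W, ENNReal.ofReal (‖deriv φ w‖ ^ s) < ⊤) :=
  Vale.Agent.P142.Sharp.Final.bounds

end Vale.Agent.Results.P142.BrennanRange
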